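import Vale.Agent.P011.E6I.H714.Neg3
import Vale.Agent.P011.E6I.Dens2
import Vale.Agent.P011.E6I.Basic

/-!
The real side of (b'): an element of `SL₁(D)` for which the form `cc` is negative at all the places
at which the octonion algebra is definite.
-/

open NumberField Topology

namespace Vale.Agent.P011.E6I

open Vale.Agent.P011.MPQ Vale.Agent.P011.D4 Vale.Agent.P011.D4.Oct Vale.Agent.P011.E6
open Matrix

/-- A real place has a real extension to a cubic extension. -/
theorem exists_ext_cubic {k L : Type} [Field k] [CharZero k] [Field L] [Algebra k L]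
    (h3 : Module.finrank k L = 3) (τ : k →+* ℝ) :
    ∃ w : L →+* ℝ, w.comp (algebraMap k L) = τ := by
  have : FiniteDimensional k L := Module.finite_of_finrank_pos (by rw [h3]; norm_num)
  have : Algebra.IsSeparable k L := inferInstance
  obtain ⟨pb, -⟩ : ∃ pb : PowerBasis k L, True := ⟨Field.powerBasisOfFiniteOfSeparable k L, trivial⟩
  let _ := τ.toAlgebra
  have hdeg : (minpoly k pb.gen).natDegree = 3 := by
    rw [pb.natDegree_minpoly, ← h3, pb.finrank]
  have hmon : (minpoly k pb.gen).Monic := minpoly.monic pb.isIntegral_gen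
  obtain ⟨x, hx⟩ := H714.cubic_root (τ ((minpoly k pb.gen).coeff 2)) (τ ((minpoly k pb.gen).coeff 1))
    (τ ((minpoly k pb.gen).coeff 0))
  have hx' : Polynomial.aeval x (minpoly k pb.gen) = 0 := by
    rw [Polynomial.aeval_eq_sum_range, hdeg, Finset.sum_range_succ, Finset.sum_range_succ,
      Finset.sum_range_succ, Finset.sum_range_succ, Finset.sum_range_zero]
    have h1 : (minpoly k pb.gen).coeff 3 = 1 := by
      rw [← hdeg]
      exact hmon.coeff_natDegree
    simp only [Algebra.smul_def, h1]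
    change 0 + τ ((minpoly k pb.gen).coeff 0) * x ^ 0 + τ ((minpoly k pb.gen).coeff 1) * x ^ 1 +
      τ ((minpoly k pb.gen).coeff 2) * x ^ 2 + τ 1 * x ^ 3 = 0
    rw [map_one]
    linear_combination hx
  refine ⟨(pb.lift x hx').toRingHom, ?_⟩
  ext t
  exact (pb.lift x hx').commutes t

section nf

variable {k L : Type} [Field k] [NumberField k] [Field L] [NumberField L] [Algebra k L]
  {ρ : L ≃ₐ[k] L} {lam : kˣ} {a b c : kˣ}

theorem exists_neg (H : Hyp ρ lam a b c) {z r : Matrix (Fin 3) (Fin 3) L} (_hz : InD0 ρ lam z)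
    (h0 : z.trace = 0) (hdz : dz z ≠ 0) (_hr : InD0 ρ lam r) (hrz : r * z = z * r)
    (hdr : r.det = 1)
    (hpos : ∀ w : L →+* ℝ, Dfn (w.comp (algebraMap k L)) a b c → ∀ (v : Fin 3 → ℝ) (t s : ℝ),
      v ≠ 0 → (z.map w).mulVec v = t • v → (r.map w).mulVec v = s • v → 0 < s) :
    ∃ g : Matrix (Fin 3) (Fin 3) L, InD0 ρ lam g ∧ g.det = 1 ∧ ∀ τ : k →+* ℝ, Dfn τ a b c →
      ∃ w : L →+* ℝ, w.comp (algebraMap k L) = τ ∧ w (cc z g r) < 0 := by
  classical
  choose w hw using fun τ : {τ : k →+* ℝ // Dfn τ a b c} => exists_ext_cubic H.h3 τ.1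
  have hinj : Function.Injective fun t => (w t).comp (algebraMap k L) := by
    intro s t hst
    apply Subtype.ext
    have : (w s).comp (algebraMap k L) = (w t).comp (algebraMap k L) := hst
    rwa [hw, hw] at this
  have htr : ∀ t, (z.map (w t)).trace = 0 := fun t => by
    have : (z.map (w t)).trace = w t z.trace := (AddMonoidHom.map_trace (w t) z).symm
    rw [this, h0, map_zero]
  have hd : ∀ t, dz (z.map (w t)) ≠ 0 := fun t => by
    rw [H714.map_dz]
    exact (map_ne_zero (w t)).2 hdz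
  have hc : ∀ t, r.map (w t) * z.map (w t) = z.map (w t) * r.map (w t) := fun t => by
    rw [← Matrix.map_mul, hrz, Matrix.map_mul]
  have hdet : ∀ t, (r.map (w t)).det = 1 := fun t => by
    have : (r.map (w t)).det = w t r.det := (RingHom.map_det (w t) r).symm
    rw [this, hdr, map_one]
  choose A hA1 hA2 using fun t => H714.real_neg (htr t) (hd t) (hc t) (hdet t)
    (hpos (w t) (by rw [hw]; exact t.2))
  have hU : {B : {τ : k →+* ℝ // Dfn τ a b c} → Matrix (Fin 3) (Fin 3) ℝ |
      ∀ t, cc (z.map (w t)) (B t) (r.map (w t)) < 0} ∈ 𝓝 A := by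
    have : {B : {τ : k →+* ℝ // Dfn τ a b c} → Matrix (Fin 3) (Fin 3) ℝ |
      ∀ t, cc (z.map (w t)) (B t) (r.map (w t)) < 0} = ⋂ t, {B |
        cc (z.map (w t)) (B t) (r.map (w t)) < 0} := by
      ext B
      simp
    rw [this]
    refine IsOpen.mem_nhds (isOpen_iInter_of_finite fun t => ?_) (Set.mem_iInter.2 hA2)
    exact isOpen_lt ((H714.continuous_cc _ _).comp (continuous_apply t)) continuous_const
  obtain ⟨ε, hε, h⟩ := mem_nhds_pi_matrix hU
  obtain ⟨g, hg, hg1, hgA⟩ := exists_inD0_det (ρ := ρ) H.rho3 H.hρ lam hinj A hA1 hε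
  refine ⟨g, hg, hg1, fun τ hτ => ⟨w ⟨τ, hτ⟩, hw ⟨τ, hτ⟩, ?_⟩⟩
  rw [← H714.map_cc]
  exact h (fun t => g.map (w t)) hgA ⟨τ, hτ⟩

end nf

end Vale.Agent.P011.E6I
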