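import Vale.Agent.P011.E6I.H369.Prj

/-!
Conjugation invariance and continuity of the form `cc`, and its values on normal forms.
-/

namespace Vale.Agent.P011.E6I.H714

open Matrix Vale.Agent.P011.E6I

section conj

variable {K : Type} [Field K]

/-- A real cubic polynomial has a root. -/
theorem cubic_root (a b c : ℝ) : ∃ x : ℝ, x ^ 3 + a * x ^ 2 + b * x + c = 0 := by
  obtain ⟨M, hM⟩ : ∃ M, M = 1 + |a| + |b| + |c| := ⟨_, rfl⟩
  have hM1 : 1 ≤ M := by
    rw [hM]
    have := abs_nonneg a
    have := abs_nonneg b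
    have := abs_nonneg c
    linarith
  have hM2 : M ≤ M ^ 2 := by nlinarith
  have hM3 : 1 ≤ M ^ 2 := by nlinarith
  have hb2 : |b| * M ≤ |b| * M ^ 2 := mul_le_mul_of_nonneg_left hM2 (abs_nonneg b)
  have hc2 : |c| * 1 ≤ |c| * M ^ 2 := mul_le_mul_of_nonneg_left hM3 (abs_nonneg c)
  have h1 : 0 < M ^ 3 + a * M ^ 2 + b * M + c := by
    have e1 : -(|a| * M ^ 2) ≤ a * M ^ 2 := by
      have := neg_abs_le a
      nlinarith [sq_nonneg M]
    have e2 : -(|b| * M ^ 2) ≤ b * M := by
      have h : -|b| * M ≤ b * M := mul_le_mul_of_nonneg_right (neg_abs_le b) (by linarith)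
      linarith
    have e3 : -(|c| * M ^ 2) ≤ c := by
      have h := neg_abs_le c
      linarith
    have e4 : M ^ 3 - (|a| + |b| + |c|) * M ^ 2 = M ^ 2 := by
      rw [hM]; ring
    nlinarith
  have h2 : (-M) ^ 3 + a * (-M) ^ 2 + b * (-M) + c < 0 := by
    have e1 : a * M ^ 2 ≤ |a| * M ^ 2 := by
      have := le_abs_self a
      nlinarith [sq_nonneg M]
    have e2 : b * (-M) ≤ |b| * M ^ 2 := by
      have h : -|b| * M ≤ b * M := mul_le_mul_of_nonneg_right (neg_abs_le b) (by linarith)
      linarith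
    have e3 : c ≤ |c| * M ^ 2 := by
      have h := le_abs_self c
      linarith
    have e4 : M ^ 3 - (|a| + |b| + |c|) * M ^ 2 = M ^ 2 := by
      rw [hM]; ring
    nlinarith
  have hcont : Continuous fun x : ℝ => x ^ 3 + a * x ^ 2 + b * x + c := by fun_prop
  have := intermediate_value_Icc (by linarith : -M ≤ M) hcont.continuousOn
  obtain ⟨x, -, hx⟩ := this ⟨h2.le, h1.le⟩
  exact ⟨x, hx⟩

variable {P P' : Matrix (Fin 3) (Fin 3) K}

theorem cj_mul (h : P' * P = 1) (x y : Matrix (Fin 3) (Fin 3) K) :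
    P * x * P' * (P * y * P') = P * (x * y) * P' := by
  have : P * x * P' * (P * y * P') = P * x * (P' * P) * (y * P') := by
    simp only [Matrix.mul_assoc]
  rw [this, h, Matrix.mul_one]
  simp only [Matrix.mul_assoc]

theorem cj_trace (h : P' * P = 1) (x : Matrix (Fin 3) (Fin 3) K) :
    (P * x * P').trace = x.trace := by
  rw [Matrix.trace_mul_comm, ← Matrix.mul_assoc, h, Matrix.one_mul]

theorem cj_det (h : P' * P = 1) (x : Matrix (Fin 3) (Fin 3) K) :
    (P * x * P').det = x.det := by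
  rw [Matrix.det_mul_comm, ← Matrix.mul_assoc, h, Matrix.one_mul]

theorem cj_adjugate (h : P' * P = 1) (x : Matrix (Fin 3) (Fin 3) K) :
    (P * x * P').adjugate = P * x.adjugate * P' := by
  have h' : P * P' = 1 := mul_eq_one_comm.1 h
  have hd : P'.det * P.det = 1 := by rw [← Matrix.det_mul, h, Matrix.det_one]
  have e1 : P'.adjugate = P'.det • P := by
    have : P'.adjugate = P'.adjugate * (P' * P) := by rw [h, Matrix.mul_one]
    rw [this, ← Matrix.mul_assoc, Matrix.adjugate_mul, Matrix.smul_mul, Matrix.one_mul]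
  have e2 : P.adjugate = P.det • P' := by
    have : P.adjugate = P.adjugate * (P * P') := by rw [h', Matrix.mul_one]
    rw [this, ← Matrix.mul_assoc, Matrix.adjugate_mul, Matrix.smul_mul, Matrix.one_mul]
  rw [Matrix.adjugate_mul_distrib, Matrix.adjugate_mul_distrib, e1, e2, Matrix.smul_mul,
    Matrix.mul_smul, Matrix.mul_smul, smul_smul, hd, one_smul, Matrix.mul_assoc]

theorem cj_pz (h : P' * P = 1) (z : Matrix (Fin 3) (Fin 3) K) : pz (P * z * P') = pz z := by
  rw [pz, pz, cj_mul h, cj_trace h]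

theorem cj_qz (h : P' * P = 1) (z : Matrix (Fin 3) (Fin 3) K) : qz (P * z * P') = qz z := by
  rw [qz, qz, cj_det h]

theorem cj_dz (h : P' * P = 1) (z : Matrix (Fin 3) (Fin 3) K) : dz (P * z * P') = dz z := by
  rw [dz, dz, cj_pz h, cj_qz h]

theorem cj_prj (h : P' * P = 1) (z y : Matrix (Fin 3) (Fin 3) K) :
    prj (P * z * P') (P * y * P') = P * prj z y * P' := by
  have h' : P * P' = 1 := mul_eq_one_comm.1 h
  simp only [prj, cj_pz h, cj_qz h, cj_mul h, cj_trace h, Matrix.mul_add, Matrix.add_mul,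
    Matrix.mul_smul, Matrix.smul_mul, Matrix.mul_one, h']

theorem cj_cc (h : P' * P = 1) (z g r : Matrix (Fin 3) (Fin 3) K) :
    cc (P * z * P') (P * g * P') (P * r * P') = cc z g r := by
  have e : (P * g * P').adjugate - (P * r * P').adjugate * (P * g * P') =
      P * (g.adjugate - r.adjugate * g) * P' := by
    rw [cj_adjugate h, cj_adjugate h, cj_mul h, Matrix.mul_sub, Matrix.sub_mul]
  simp only [cc, fz, e, cj_dz h, cj_prj h, cj_mul h, cj_trace h]

end conj

section map

variable {K F : Type} [Field K] [Field F] (w : K →+* F)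

theorem map_pz (z : Matrix (Fin 3) (Fin 3) K) : pz (z.map w) = w (pz z) := by
  rw [pz, pz, ← Matrix.map_mul, map_div₀, map_neg, map_ofNat]
  congr 2
  exact (AddMonoidHom.map_trace w (z * z)).symm

theorem map_qz (z : Matrix (Fin 3) (Fin 3) K) : qz (z.map w) = w (qz z) := by
  rw [qz, qz, map_neg]
  congr 1
  exact (RingHom.map_det w z).symm

theorem map_dz (z : Matrix (Fin 3) (Fin 3) K) : dz (z.map w) = w (dz z) := by
  rw [dz, dz, map_pz, map_qz]
  simp [map_ofNat]

theorem map_prj (z y : Matrix (Fin 3) (Fin 3) K) :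
    prj (z.map w) (y.map w) = (prj z y).map w := by
  have h : ∀ x : Matrix (Fin 3) (Fin 3) K, (x.map w).trace = w x.trace := fun x =>
    (AddMonoidHom.map_trace w x).symm
  have h1 : ((1 : Matrix (Fin 3) (Fin 3) K).map w) = 1 :=
    Matrix.map_one _ (map_zero w) (map_one w)
  simp only [prj, ← Matrix.map_mul, h, map_pz, map_qz]
  ext i j
  have h2 : ∀ i j, (1 : Matrix (Fin 3) (Fin 3) F) i j = w ((1 : Matrix (Fin 3) (Fin 3) K) i j) :=
    fun i j => by rw [← h1]; rfl
  simp only [Matrix.add_apply, Matrix.smul_apply, smul_eq_mul, Matrix.map_apply, h2, map_add,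
    map_mul, map_sub, map_pow, map_neg, map_ofNat]

theorem map_cc (z g r : Matrix (Fin 3) (Fin 3) K) :
    cc (z.map w) (g.map w) (r.map w) = w (cc z g r) := by
  have h : ∀ x : Matrix (Fin 3) (Fin 3) K, (x.map w).trace = w x.trace := fun x =>
    (AddMonoidHom.map_trace w x).symm
  have ha : ∀ x : Matrix (Fin 3) (Fin 3) K, (x.map w).adjugate = x.adjugate.map w := fun x =>
    (RingHom.map_adjugate w x).symm
  have hs : ∀ x y : Matrix (Fin 3) (Fin 3) K, x.map w - y.map w = (x - y).map w := fun x y =>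
    (Matrix.map_sub w (map_sub w) x y).symm
  simp only [cc, fz, ha, ← Matrix.map_mul, hs, map_prj, h, map_dz]
  simp only [map_mul, map_sub, map_pow, map_ofNat]

end map

section cont

theorem continuous_cc (z r : Matrix (Fin 3) (Fin 3) ℝ) :
    Continuous fun g : Matrix (Fin 3) (Fin 3) ℝ => cc z g r := by
  unfold cc fz prj
  fun_prop

end cont

end Vale.Agent.P011.E6I.H714
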