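import Vale.Agent.P011.E6I.H714.Neg1

/-!
The real normal forms.
-/

namespace Vale.Agent.P011.E6I.H714

open Matrix Vale.Agent.P011.E6I

theorem prj_diag (x y : ℝ) (Y : Matrix (Fin 3) (Fin 3) ℝ) :
    prj (diagonal ![x, y, -x - y]) Y =
      dz (diagonal ![x, y, -x - y]) • diagonal ![Y 0 0, Y 1 1, Y 2 2] := by
  ext i j
  fin_cases i <;> fin_cases j <;>
    simp [prj, dz, pz, qz, Matrix.trace_fin_three, Matrix.mul_apply, Matrix.det_fin_three,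
      Matrix.diagonal] <;> ring

theorem neg_diag {x y : ℝ} (hd : 0 < dz (diagonal ![x, y, -x - y])) {s : Fin 3 → ℝ}
    (hs : ∀ i, 0 < s i) (hprod : s 0 * s 1 * s 2 = 1) :
    ∃ A : Matrix (Fin 3) (Fin 3) ℝ, A.det = 1 ∧
      cc (diagonal ![x, y, -x - y]) A (diagonal s) < 0 := by
  obtain ⟨p, hp⟩ : ∃ p, p = Real.sqrt (s 0) := ⟨_, rfl⟩
  obtain ⟨q, hq⟩ : ∃ q, q = Real.sqrt (s 1) := ⟨_, rfl⟩
  obtain ⟨r, hr⟩ : ∃ r, r = Real.sqrt (s 2) := ⟨_, rfl⟩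
  have hp2 : s 0 = p ^ 2 := by rw [hp, Real.sq_sqrt (hs 0).le]
  have hq2 : s 1 = q ^ 2 := by rw [hq, Real.sq_sqrt (hs 1).le]
  have hr2 : s 2 = r ^ 2 := by rw [hr, Real.sq_sqrt (hs 2).le]
  have hp0 : 0 < p := by rw [hp]; exact Real.sqrt_pos.2 (hs 0)
  have hq0 : 0 < q := by rw [hq]; exact Real.sqrt_pos.2 (hs 1)
  have hr0 : 0 < r := by rw [hr]; exact Real.sqrt_pos.2 (hs 2)
  have h1 : p * q * r = 1 := by
    have h2 : (p * q * r) ^ 2 = 1 := by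
      rw [← hprod, hp2, hq2, hr2]; ring
    have h3 : (p * q * r - 1) * (p * q * r + 1) = 0 := by linear_combination h2
    rcases mul_eq_zero.1 h3 with h | h
    · linarith
    · have := mul_pos (mul_pos hp0 hq0) hr0
      linarith
  obtain ⟨A, hA⟩ : ∃ A : Matrix (Fin 3) (Fin 3) ℝ, A = !![p * (2 / 3), p, p * (4 / 3);
    q * (4 / 3), q * (2 / 3), q; r, r * (4 / 3), r * (2 / 3)] := ⟨_, rfl⟩
  obtain ⟨Y, hY⟩ : ∃ Y : Matrix (Fin 3) (Fin 3) ℝ, Y = A.adjugate - (diagonal s).adjugate * A :=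
    ⟨_, rfl⟩
  have hY0 : Y 0 0 = q * r * (-(14 / 9)) := by
    rw [hY, hA]
    simp [Matrix.adjugate_fin_three, Matrix.diagonal, hq2,
      hr2]
    linear_combination (-(2 / 3) * q * r) * h1
  have hY1 : Y 1 1 = p * r * (-(14 / 9)) := by
    rw [hY, hA]
    simp [Matrix.adjugate_fin_three, Matrix.diagonal, hp2,
      hr2]
    linear_combination (-(2 / 3) * p * r) * h1
  have hY2 : Y 2 2 = p * q * (-(14 / 9)) := by
    rw [hY, hA]
    simp [Matrix.adjugate_fin_three, Matrix.diagonal, hp2,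
      hq2]
    linear_combination (-(2 / 3) * p * q) * h1
  refine ⟨A, ?_, ?_⟩
  · rw [hA, Matrix.det_fin_three]
    simp
    linear_combination h1
  · obtain ⟨d, hdd⟩ : ∃ d, d = dz (diagonal ![x, y, -x - y]) := ⟨_, rfl⟩
    have hf : fz (diagonal ![x, y, -x - y]) A (diagonal s) =
        (d ^ 2 * (14 / 9) ^ 2) • (1 : Matrix (Fin 3) (Fin 3) ℝ) := by
      rw [fz, ← hY, prj_diag, ← hdd, hY0, hY1, hY2]
      ext i j
      fin_cases i <;> fin_cases j <;>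
        simp [Matrix.mul_apply, Matrix.diagonal, hp2, hq2, hr2]
      · linear_combination (d ^ 2 * (14 / 9) ^ 2) * (p * q * r + 1) * h1
      · linear_combination (d ^ 2 * (14 / 9) ^ 2) * (p * q * r + 1) * h1
      · linear_combination (d ^ 2 * (14 / 9) ^ 2) * (p * q * r + 1) * h1
    rw [cc, hf, ← hdd]
    have h4 : 0 < d := by rw [hdd]; exact hd
    simp
    have h5 : 0 < d * (d ^ 2 * (14 / 9) ^ 2) ^ 2 := by positivity
    nlinarith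

/-- The normal form with only one real eigenvalue. -/
noncomputable def nf (t κ : ℝ) : Matrix (Fin 3) (Fin 3) ℝ := !![t, 0, 0; 0, -t / 2, κ; 0, 1, -t / 2]

theorem pz_nf (t κ : ℝ) : pz (nf t κ) = -3 * t ^ 2 / 4 - κ := by
  simp [pz, nf, Matrix.trace_fin_three]
  ring

theorem qz_nf (t κ : ℝ) : qz (nf t κ) = -t * (t ^ 2 / 4 - κ) := by
  simp [qz, nf, Matrix.det_fin_three]
  ring

theorem prj_nf (t κ y u v : ℝ) :
    prj (nf t κ) !![y, 0, 0; 0, u, -κ * v; 0, v, -u] =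
      dz (nf t κ) • !![y, 0, 0; 0, 0, 0; 0, 0, 0] := by
  rw [prj, dz, pz_nf, qz_nf]
  ext i j
  fin_cases i <;> fin_cases j <;>
    simp [nf, Matrix.trace_fin_three] <;> ring

theorem neg_nf {t κ : ℝ} (hd : dz (nf t κ) < 0) {r γ δ : ℝ} (hr : 0 < r)
    (hdet : r * (γ ^ 2 - κ * δ ^ 2) = 1) :
    ∃ A : Matrix (Fin 3) (Fin 3) ℝ, A.det = 1 ∧
      cc (nf t κ) A !![r, 0, 0; 0, γ, κ * δ; 0, δ, γ] < 0 := by
  obtain ⟨s, hs0, hs⟩ : ∃ s : ℝ, s ≠ 0 ∧ s ^ 4 * r ≠ 1 := by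
    by_cases h : r = 1
    · exact ⟨2, two_ne_zero, by rw [h]; norm_num⟩
    · exact ⟨1, one_ne_zero, by simpa using h⟩
  obtain ⟨m, hm⟩ : ∃ m, m = -(s ^ 2)⁻¹ := ⟨_, rfl⟩
  have hms : m * s ^ 2 = -1 := by rw [hm]; field_simp
  obtain ⟨A, hA⟩ : ∃ A : Matrix (Fin 3) (Fin 3) ℝ, A = !![m, 0, 0; 0, s, 0; 0, 0, -s] := ⟨_, rfl⟩
  obtain ⟨y, hy⟩ : ∃ y, y = -s ^ 2 - (γ ^ 2 - κ * δ ^ 2) * m := ⟨_, rfl⟩
  have hy0 : y ≠ 0 := by
    intro h
    apply hs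
    have h1 : y * (r * s ^ 2) = 0 := by rw [h, zero_mul]
    rw [hy] at h1
    linear_combination -h1 - (r * (γ ^ 2 - κ * δ ^ 2)) * hms + hdet
  have hY : A.adjugate - (!![r, 0, 0; 0, γ, κ * δ; 0, δ, γ] : Matrix (Fin 3) (Fin 3) ℝ).adjugate *
      A = !![y, 0, 0; 0, -m * s - r * γ * s, -κ * (r * δ * s); 0, r * δ * s,
        -(-m * s - r * γ * s)] := by
    rw [hA, hy]
    ext i j
    fin_cases i <;> fin_cases j <;>
      simp [Matrix.adjugate_fin_three] <;> ring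
  refine ⟨A, ?_, ?_⟩
  · rw [hA, Matrix.det_fin_three]
    simp
    linear_combination -hms
  · obtain ⟨d, hdd⟩ : ∃ d, d = dz (nf t κ) := ⟨_, rfl⟩
    have hf : fz (nf t κ) A !![r, 0, 0; 0, γ, κ * δ; 0, δ, γ] =
        !![d ^ 2 * y ^ 2 * r, 0, 0; 0, 0, 0; 0, 0, 0] := by
      rw [fz, hY, prj_nf, ← hdd]
      ext i j
      fin_cases i <;> fin_cases j <;>
        simp [Matrix.mul_apply, Fin.sum_univ_three]
      left
      ring
    rw [cc, hf, ← hdd]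
    have h4 : d < 0 := by rw [hdd]; exact hd
    have h5 : d * (2 * ((!![d ^ 2 * y ^ 2 * r, 0, 0; 0, 0, 0; 0, 0, 0] :
        Matrix (Fin 3) (Fin 3) ℝ) * !![d ^ 2 * y ^ 2 * r, 0, 0; 0, 0, 0; 0, 0, 0]).trace -
        (!![d ^ 2 * y ^ 2 * r, 0, 0; 0, 0, 0; 0, 0, 0] : Matrix (Fin 3) (Fin 3) ℝ).trace ^ 2) =
        d * (d ^ 2 * y ^ 2 * r) ^ 2 := by
      simp [Matrix.trace_fin_three]
      left
      ring
    rw [h5]
    have h6 : 0 < (d ^ 2 * y ^ 2 * r) ^ 2 := by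
      have : d ≠ 0 := h4.ne
      positivity
    exact mul_neg_of_neg_of_pos h4 h6

end Vale.Agent.P011.E6I.H714
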