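import Vale.Agent.P011.E6I.H714.Neg2

/-!
Reduction of real matrices to the normal forms.
-/

namespace Vale.Agent.P011.E6I.H714

open Matrix Vale.Agent.P011.E6I

variable {Z R P P' N : Matrix (Fin 3) (Fin 3) ℝ}

theorem exists_eig (h0 : Z.trace = 0) {t : ℝ} (ht : t ^ 3 + pz Z * t + qz Z = 0) :
    ∃ v : Fin 3 → ℝ, v ≠ 0 ∧ Z *ᵥ v = t • v := by
  have hd : (Z - t • (1 : Matrix (Fin 3) (Fin 3) ℝ)).det = 0 := by
    have h2 : Z 2 2 = -Z 0 0 - Z 1 1 := by
      rw [Matrix.trace_fin_three] at h0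
      linear_combination h0
    rw [pz, qz, Matrix.trace_fin_three, Matrix.det_fin_three] at ht
    simp only [Matrix.mul_apply, Fin.sum_univ_three] at ht
    rw [Matrix.det_fin_three]
    simp [h2] at ht ⊢
    linear_combination -ht
  obtain ⟨v, hv, h⟩ := Matrix.exists_mulVec_eq_zero_iff.2 hd
  refine ⟨v, hv, ?_⟩
  rw [Matrix.sub_mulVec, Matrix.smul_mulVec, Matrix.one_mulVec, sub_eq_zero] at h
  exact h

theorem reduce (h : P' * P = 1) (hZ : Z * P = P * N) (hRZ : R * Z = Z * R) :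
    Z = P * N * P' ∧ R = P * (P' * R * P) * P' ∧ P' * R * P * N = N * (P' * R * P) := by
  have h' : P * P' = 1 := mul_eq_one_comm.1 h
  have e1 : Z = P * N * P' := by rw [← hZ, Matrix.mul_assoc, h', Matrix.mul_one]
  have e2 : P' * Z = N * P' := by
    rw [e1, ← Matrix.mul_assoc, ← Matrix.mul_assoc, h, Matrix.one_mul]
  refine ⟨e1, ?_, ?_⟩
  · have : P * (P' * R * P) * P' = (P * P') * R * (P * P') := by
      simp only [Matrix.mul_assoc]
    rw [this, h', Matrix.one_mul, Matrix.mul_one]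
  · calc P' * R * P * N = P' * R * (P * N) := by rw [Matrix.mul_assoc]
      _ = P' * R * (Z * P) := by rw [hZ]
      _ = P' * (R * Z) * P := by simp only [Matrix.mul_assoc]
      _ = P' * (Z * R) * P := by rw [hRZ]
      _ = P' * Z * R * P := by simp only [Matrix.mul_assoc]
      _ = N * P' * R * P := by rw [e2]
      _ = N * (P' * R * P) := by simp only [Matrix.mul_assoc]

/-- A column of `P` is an eigenvector of `R`. -/
theorem eig_col (h : P' * P = 1) {i : Fin 3} {s : ℝ}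
    (hs : ∀ j, (P' * R * P) j i = if j = i then s else 0) :
    R *ᵥ (fun k => P k i) = s • fun k => P k i := by
  have h' : P * P' = 1 := mul_eq_one_comm.1 h
  have e : R * P = P * (P' * R * P) := by
    have : P * (P' * R * P) = (P * P') * R * P := by simp only [Matrix.mul_assoc]
    rw [this, h', Matrix.one_mul]
  ext k
  have e1 := congrFun (congrFun e k) i
  rw [Matrix.mul_apply, Matrix.mul_apply] at e1
  simp only [hs, mul_ite, mul_zero, Finset.sum_ite_eq', Finset.mem_univ, if_true] at e1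
  change ∑ j, R k j * P j i = s * P k i
  rw [e1, mul_comm]

theorem col_ne_zero (h : P' * P = 1) (i : Fin 3) : (fun k => P k i) ≠ 0 := by
  intro h0
  have h1 := congrFun (congrFun h i) i
  rw [Matrix.mul_apply] at h1
  have h2 : ∀ k, P k i = 0 := fun k => congrFun h0 k
  simp [h2] at h1

theorem neg_of_reduce (h : P' * P = 1) (hZ : Z = P * N * P') {S : Matrix (Fin 3) (Fin 3) ℝ}
    (hR : R = P * S * P') (hA : ∃ A : Matrix (Fin 3) (Fin 3) ℝ, A.det = 1 ∧ cc N A S < 0) :
    ∃ A : Matrix (Fin 3) (Fin 3) ℝ, A.det = 1 ∧ cc Z A R < 0 := by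
  obtain ⟨A, h1, h2⟩ := hA
  exact ⟨P * A * P', by rw [cj_det h, h1], by rw [hZ, hR, cj_cc h]; exact h2⟩

/-- Three real eigenvalues. -/
theorem neg_three (hRZ : R * Z = Z * R) (hR : R.det = 1)
    (hpos : ∀ (v : Fin 3 → ℝ) (t s : ℝ), v ≠ 0 → Z *ᵥ v = t • v → R *ᵥ v = s • v → 0 < s)
    {x y : ℝ} {v : Fin 3 → Fin 3 → ℝ} (hv0 : ∀ i, v i ≠ 0)
    (hv : ∀ i, Z *ᵥ (v i) = (![x, y, -x - y] : Fin 3 → ℝ) i • v i) (h01 : x ≠ y)
    (h02 : x ≠ -x - y) (h12 : y ≠ -x - y) :
    ∃ A : Matrix (Fin 3) (Fin 3) ℝ, A.det = 1 ∧ cc Z A R < 0 := by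
  have hinj : Function.Injective (![x, y, -x - y] : Fin 3 → ℝ) := by
    intro i j hij
    fin_cases i <;> fin_cases j <;> simp at hij ⊢ <;>
      first | exact h01 hij | exact h01 hij.symm | exact h02 hij | exact h02 hij.symm |
        exact h12 hij | exact h12 hij.symm
  have hli : LinearIndependent ℝ v :=
    Module.End.eigenvectors_linearIndependent' (Matrix.toLin' Z) _ hinj v fun i =>
      ⟨Module.End.mem_eigenspace_iff.2 (by rw [Matrix.toLin'_apply]; exact hv i), hv0 i⟩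
  obtain ⟨P, hP⟩ : ∃ P : Matrix (Fin 3) (Fin 3) ℝ, P = (Matrix.of v)ᵀ := ⟨_, rfl⟩
  have hPu : IsUnit P.det := by
    rw [hP, Matrix.det_transpose, ← Matrix.isUnit_iff_isUnit_det,
      ← Matrix.linearIndependent_rows_iff_isUnit]
    exact hli
  have h : P⁻¹ * P = 1 := Matrix.nonsing_inv_mul P hPu
  have hPk : ∀ k i, P k i = v i k := fun k i => by rw [hP]; rfl
  have hZ : Z * P = P * diagonal ![x, y, -x - y] := by
    ext k i
    rw [Matrix.mul_diagonal, Matrix.mul_apply]
    have h1 := congrFun (hv i) k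
    simp only [hPk]
    change ∑ j, Z k j * v i j = _ * v i k at h1
    rw [h1, mul_comm]
  obtain ⟨hZ', hR', hc⟩ := reduce h hZ hRZ
  obtain ⟨S, hS⟩ : ∃ S, S = P⁻¹ * R * P := ⟨_, rfl⟩
  rw [← hS] at hR' hc
  have hoff : ∀ i j, i ≠ j → S i j = 0 := by
    intro i j hij
    have h1 := congrFun (congrFun hc i) j
    rw [Matrix.mul_diagonal, Matrix.diagonal_mul] at h1
    have h2 : ((![x, y, -x - y] : Fin 3 → ℝ) j - (![x, y, -x - y] : Fin 3 → ℝ) i) * S i j = 0 := by
      linear_combination h1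
    exact (mul_eq_zero.1 h2).resolve_left (sub_ne_zero.2 fun h => hij (hinj h.symm))
  have hSd : S = diagonal fun i => S i i := by
    ext i j
    by_cases hij : i = j
    · subst hij
      rw [Matrix.diagonal_apply_eq]
    · rw [hoff i j hij, Matrix.diagonal_apply_ne _ hij]
  have hs : ∀ i, 0 < S i i := by
    intro i
    refine hpos (fun k => P k i) ((![x, y, -x - y] : Fin 3 → ℝ) i) (S i i) (col_ne_zero h i) ?_ ?_
    · have : (fun k => P k i) = v i := funext fun k => hPk k i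
      rw [this]
      exact hv i
    · apply eig_col h
      intro j
      rw [← hS]
      split_ifs with hji
      · rw [hji]
      · exact hoff j i hji
  have hprod : S 0 0 * S 1 1 * S 2 2 = 1 := by
    have h1 : S.det = 1 := by
      rw [← hR, hR', cj_det h]
    rw [hSd, Matrix.det_diagonal, Fin.prod_univ_three] at h1
    exact h1
  have hd : 0 < dz (diagonal ![x, y, -x - y]) := by
    have : dz (diagonal ![x, y, -x - y]) = ((x - y) * (2 * x + y) * (x + 2 * y)) ^ 2 := by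
      simp [dz, pz, qz, Matrix.trace_fin_three, Matrix.mul_apply, Matrix.det_fin_three,
        Matrix.diagonal]
      ring
    rw [this]
    have e1 : x - y ≠ 0 := sub_ne_zero.2 h01
    have e2 : 2 * x + y ≠ 0 := fun h => h02 (by linear_combination h)
    have e3 : x + 2 * y ≠ 0 := fun h => h12 (by linear_combination h)
    positivity
  refine neg_of_reduce h hZ' hR' ?_
  rw [hSd]
  exact neg_diag hd hs hprod

theorem dz_nf (t κ : ℝ) : dz (nf t κ) = 4 * κ * (9 / 4 * t ^ 2 - κ) ^ 2 := by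
  rw [dz, pz_nf, qz_nf]
  ring

/-- One real eigenvalue. -/
theorem neg_one (hRZ : R * Z = Z * R) (hR : R.det = 1)
    (hpos : ∀ (v : Fin 3 → ℝ) (t s : ℝ), v ≠ 0 → Z *ᵥ v = t • v → R *ᵥ v = s • v → 0 < s)
    {t κ : ℝ} (hκ : κ < 0) {v x y : Fin 3 → ℝ} (hv0 : v ≠ 0) (hx0 : x ≠ 0) (hv : Z *ᵥ v = t • v)
    (hx : Z *ᵥ x = -(t / 2) • x + y) (hy : Z *ᵥ y = κ • x - (t / 2) • y) :
    ∃ A : Matrix (Fin 3) (Fin 3) ℝ, A.det = 1 ∧ cc Z A R < 0 := by
  have hk : (0 : ℝ) < 9 / 4 * t ^ 2 - κ := by nlinarith [sq_nonneg t]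
  obtain ⟨P, hP⟩ : ∃ P : Matrix (Fin 3) (Fin 3) ℝ, P = (Matrix.of ![v, x, y])ᵀ := ⟨_, rfl⟩
  have hP0 : ∀ k, P k 0 = v k := fun k => by rw [hP]; rfl
  have hP1 : ∀ k, P k 1 = x k := fun k => by rw [hP]; rfl
  have hP2 : ∀ k, P k 2 = y k := fun k => by rw [hP]; rfl
  have hPd : P.det ≠ 0 := by
    intro h
    obtain ⟨c, hc0, hc⟩ := Matrix.exists_mulVec_eq_zero_iff.2 h
    have e1 : c 0 • v + c 1 • x + c 2 • y = 0 := by
      rw [← hc]
      ext k
      simp only [Matrix.mulVec, dotProduct, Fin.sum_univ_three, hP0, hP1, hP2, Pi.add_apply,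
        Pi.smul_apply, smul_eq_mul]
      ring
    have e2 := congrArg (fun u => Z *ᵥ u) e1
    simp only [Matrix.mulVec_add, Matrix.mulVec_smul, Matrix.mulVec_zero, hv, hx, hy] at e2
    have e3 := congrArg (fun u => Z *ᵥ u) e2
    simp only [Matrix.mulVec_add, Matrix.mulVec_sub, Matrix.mulVec_smul, Matrix.mulVec_zero, hv,
      hx, hy] at e3
    -- apply `Z² + t Z + t²/4 - κ`
    have e4 : (c 0 * (9 / 4 * t ^ 2 - κ)) • v = 0 := by
      have : (c 0 * (9 / 4 * t ^ 2 - κ)) • v = (t ^ 2 / 4 - κ) • (c 0 • v + c 1 • x + c 2 • y) +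
          t • (c 0 • t • v + c 1 • (-(t / 2) • x + y) + c 2 • (κ • x - (t / 2) • y)) +
          (c 0 • t • t • v + c 1 • (-(t / 2) • (-(t / 2) • x + y) + (κ • x - (t / 2) • y)) +
            c 2 • (κ • (-(t / 2) • x + y) - (t / 2) • (κ • x - (t / 2) • y))) := by
        module
      rw [this, e1, e2, e3]
      simp
    have h0 : c 0 = 0 := by
      rcases smul_eq_zero.1 e4 with h | h
      · exact (mul_eq_zero.1 h).resolve_right hk.ne'
      · exact absurd h hv0
    rw [h0, zero_smul, zero_add] at e1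
    have e5 : (c 1 ^ 2 - κ * c 2 ^ 2) • x = 0 := by
      rw [h0] at e2
      have : (c 1 ^ 2 - κ * c 2 ^ 2) • x = (c 1 - t / 2 * c 2) • (c 1 • x + c 2 • y) -
          c 2 • ((0 : ℝ) • t • v + c 1 • (-(t / 2) • x + y) + c 2 • (κ • x - (t / 2) • y)) := by
        module
      rw [this, e1, e2]
      simp
    have e6 : c 1 ^ 2 - κ * c 2 ^ 2 = 0 := (smul_eq_zero.1 e5).resolve_right hx0
    have e7 : c 1 ^ 2 = 0 := by nlinarith [sq_nonneg (c 1), sq_nonneg (c 2)]
    have e8 : c 2 ^ 2 = 0 := by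
      have : κ * c 2 ^ 2 = 0 := by linarith
      exact (mul_eq_zero.1 this).resolve_left hκ.ne
    apply hc0
    ext k
    fin_cases k
    · exact h0
    · exact pow_eq_zero_iff two_ne_zero |>.1 e7
    · exact pow_eq_zero_iff two_ne_zero |>.1 e8
  have h : P⁻¹ * P = 1 := Matrix.nonsing_inv_mul P (isUnit_iff_ne_zero.2 hPd)
  have hZ : Z * P = P * nf t κ := by
    have hv' := fun k => congrFun hv k
    have hx' := fun k => congrFun hx k
    have hy' := fun k => congrFun hy k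
    simp only [Matrix.mulVec, dotProduct, Fin.sum_univ_three, Pi.add_apply, Pi.sub_apply,
      Pi.smul_apply, smul_eq_mul] at hv' hx' hy'
    ext k i
    rw [Matrix.mul_apply, Matrix.mul_apply, Fin.sum_univ_three, Fin.sum_univ_three]
    fin_cases i
    · simp [nf, hP0, hP1, hP2]
      linear_combination hv' k
    · simp [nf, hP0, hP1, hP2]
      linear_combination hx' k
    · simp [nf, hP0, hP1, hP2]
      linear_combination hy' k
  obtain ⟨hZ', hR', hc⟩ := reduce h hZ hRZ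
  obtain ⟨S, hS⟩ : ∃ S, S = P⁻¹ * R * P := ⟨_, rfl⟩
  rw [← hS] at hR' hc
  have hc' : ∀ i j, (S * nf t κ) i j = (nf t κ * S) i j := fun i j => by rw [hc]
  simp only [Matrix.mul_apply, Fin.sum_univ_three] at hc'
  have c01 := hc' 0 1
  have c02 := hc' 0 2
  have c10 := hc' 1 0
  have c20 := hc' 2 0
  have c11 := hc' 1 1
  have c12 := hc' 1 2
  simp [nf] at c01 c02 c10 c20 c11 c12
  have s01 : S 0 1 = 0 := by
    have : (9 / 4 * t ^ 2 - κ) * S 0 1 = 0 := by linear_combination -c02 - (3 / 2 * t) * c01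
    exact (mul_eq_zero.1 this).resolve_left hk.ne'
  have s02 : S 0 2 = 0 := by
    rw [s01] at c01
    linear_combination c01
  have s20 : S 2 0 = 0 := by
    have : (9 / 4 * t ^ 2 - κ) * S 2 0 = 0 := by linear_combination c10 + (3 / 2 * t) * c20
    exact (mul_eq_zero.1 this).resolve_left hk.ne'
  have s10 : S 1 0 = 0 := by
    rw [s20] at c20
    linear_combination -c20
  have s12 : S 1 2 = κ * S 2 1 := by linear_combination c11
  have s22 : S 2 2 = S 1 1 := by
    have : κ * (S 1 1 - S 2 2) = 0 := by linear_combination c12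
    have := (mul_eq_zero.1 this).resolve_left hκ.ne
    linear_combination -this
  have hSd : S = !![S 0 0, 0, 0; 0, S 1 1, κ * S 2 1; 0, S 2 1, S 1 1] := by
    ext i j
    fin_cases i <;> fin_cases j <;> simp [s01, s02, s10, s20, s12, s22]
  have hs : 0 < S 0 0 := by
    refine hpos (fun k => P k 0) t (S 0 0) (col_ne_zero h 0) ?_ ?_
    · have : (fun k => P k 0) = v := funext fun k => hP0 k
      rw [this]
      exact hv
    · apply eig_col h
      intro j
      rw [← hS]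
      fin_cases j
      · simp
      · simpa using s10
      · simpa using s20
  have hdet : S 0 0 * (S 1 1 ^ 2 - κ * S 2 1 ^ 2) = 1 := by
    have h1 : S.det = 1 := by rw [← hR, hR', cj_det h]
    rw [Matrix.det_fin_three, s01, s02, s10, s20, s12, s22] at h1
    linear_combination h1
  refine neg_of_reduce h hZ' hR' ?_
  rw [hSd]
  refine neg_nf ?_ hs hdet
  rw [dz_nf]
  have : 0 < (9 / 4 * t ^ 2 - κ) ^ 2 := by positivity
  nlinarith

/-- The real lemma. -/
theorem real_neg (h0 : Z.trace = 0) (hd : dz Z ≠ 0) (hRZ : R * Z = Z * R) (hR : R.det = 1)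
    (hpos : ∀ (v : Fin 3 → ℝ) (t s : ℝ), v ≠ 0 → Z *ᵥ v = t • v → R *ᵥ v = s • v → 0 < s) :
    ∃ A : Matrix (Fin 3) (Fin 3) ℝ, A.det = 1 ∧ cc Z A R < 0 := by
  obtain ⟨t, ht⟩ := cubic_root 0 (pz Z) (qz Z)
  have ht' : t ^ 3 + pz Z * t + qz Z = 0 := by linear_combination ht
  obtain ⟨κ, hκ⟩ : ∃ κ, κ = -(3 / 4) * t ^ 2 - pz Z := ⟨_, rfl⟩
  have hp : pz Z = -(3 / 4) * t ^ 2 - κ := by rw [hκ]; ring
  have hq : qz Z = -t ^ 3 - pz Z * t := by linear_combination ht'
  have hdz : dz Z = 4 * κ * (9 / 4 * t ^ 2 - κ) ^ 2 := by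
    rw [dz, hq, hp]
    ring
  rcases lt_trichotomy κ 0 with h | h | h
  · obtain ⟨v, hv0, hv⟩ := exists_eig h0 ht'
    obtain ⟨u, hu⟩ : ∃ u : Fin 3 → ℝ, Z *ᵥ u - t • u ≠ 0 := by
      by_contra hcon
      push Not at hcon
      have h1 : Z = t • (1 : Matrix (Fin 3) (Fin 3) ℝ) := by
        apply Matrix.ext_of_mulVec_single
        intro i
        rw [Matrix.smul_mulVec, Matrix.one_mulVec]
        exact sub_eq_zero.1 (hcon _)
      apply hd
      have h2 : t = 0 := by
        rw [h1, Matrix.trace_smul, Matrix.trace_one] at h0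
        simpa using h0
      rw [h1, h2, zero_smul]
      simp [dz, pz, qz]
    obtain ⟨x, hx⟩ : ∃ x, x = Z *ᵥ u - t • u := ⟨_, rfl⟩
    obtain ⟨y, hy⟩ : ∃ y, y = Z *ᵥ x + (t / 2) • x := ⟨_, rfl⟩
    have hcub : Z *ᵥ (Z *ᵥ (Z *ᵥ u)) = -(pz Z • (Z *ᵥ u)) - qz Z • u := by
      have := congrArg (fun M => M *ᵥ u) (z_cube h0)
      simp only [← Matrix.mulVec_mulVec, Matrix.sub_mulVec, Matrix.neg_mulVec,
        Matrix.smul_mulVec, Matrix.one_mulVec] at this
      exact this
    refine neg_one hRZ hR hpos (t := t) (κ := κ) h hv0 (x := x) (y := y) (by rw [hx]; exact hu) hv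
      (by rw [hy]; module) ?_
    rw [hy, hx]
    simp only [Matrix.mulVec_add, Matrix.mulVec_sub, Matrix.mulVec_smul, hcub, hq]
    rw [hp]
    module
  · exact absurd (by rw [hdz, h]; ring) hd
  · obtain ⟨e, he0, he⟩ : ∃ e : ℝ, 0 < e ∧ e ^ 2 = κ :=
      ⟨Real.sqrt κ, Real.sqrt_pos.2 h, Real.sq_sqrt h.le⟩
    have hr1 : (-t / 2 + e) ^ 3 + pz Z * (-t / 2 + e) + qz Z = 0 := by
      rw [hq, hp, ← he]; ring
    have hr2 : (-t - (-t / 2 + e)) ^ 3 + pz Z * (-t - (-t / 2 + e)) + qz Z = 0 := by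
      rw [hq, hp, ← he]; ring
    obtain ⟨v0, h00, h01⟩ := exists_eig h0 ht'
    obtain ⟨v1, h10, h11⟩ := exists_eig h0 hr1
    obtain ⟨v2, h20, h21⟩ := exists_eig h0 hr2
    have hne : 9 / 4 * t ^ 2 - κ ≠ 0 := by
      intro h1
      rw [h1] at hdz
      exact hd (by rw [hdz]; ring)
    refine neg_three hRZ hR hpos (x := t) (y := -t / 2 + e) (v := ![v0, v1, v2]) ?_ ?_ ?_ ?_ ?_
    · intro i
      fin_cases i
      · exact h00
      · exact h10
      · exact h20
    · intro i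
      fin_cases i
      · exact h01
      · exact h11
      · exact h21
    · intro h1
      apply hne
      have : e = 3 / 2 * t := by linear_combination -h1
      rw [← he, this]
      ring
    · intro h1
      apply hne
      have : e = -(3 / 2 * t) := by linear_combination h1
      rw [← he, this]
      ring
    · intro h1
      have : e = 0 := by linear_combination h1 / 2
      exact he0.ne' this

end Vale.Agent.P011.E6I.H714
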